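import Vale.Agent.P235.XC.Defs

/-!
P235, line XC, row [X5] (second copy, helper406): a cross around a block gives `TX r`.
-/

set_option autoImplicit false

namespace Vale.Agent.P235.XC.H406

open SimpleGraph Vale.Agent.P235.H134 Vale.Agent.P235.H56 Vale.Agent.P235.K5
open Vale.Agent.P235.K5.W.H531 (Con Tch con_union)

variable {V : Type} {G : SimpleGraph V}

theorem mem_UY {I : Type} {Y : I → Set V} {Z : Set I} {v : V} :
    v ∈ UY Y Z ↔ ∃ p ∈ Z, v ∈ Y p := by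
  unfold UY
  simp only [Set.mem_iUnion, exists_prop]

theorem UY_mono {I : Type} {Y : I → Set V} {Z Z' : Set I} (h : Z ⊆ Z') : UY Y Z ⊆ UY Y Z' := by
  intro v hv
  obtain ⟨p, hp, hvp⟩ := mem_UY.1 hv
  exact mem_UY.2 ⟨p, h hp, hvp⟩

/-- the union of the branch sets over a connected set of positions is connected -/
theorem con_UY {I : Type} {K : SimpleGraph I} {Y : I → Set V} (h1 : ∀ p, Con G (Y p))
    (h3 : ∀ p q, K.Adj p q → Tch G (Y p) (Y q)) {Z : Set I} (hZ : (K.induce Z).Connected) :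
    Con G (UY Y Z) := by
  have hT : ∀ x ∈ Z, Y x ⊆ UY Y Z := fun x hx v hv => mem_UY.2 ⟨x, hx, hv⟩
  obtain ⟨⟨x0, hx0⟩⟩ := hZ.nonempty
  obtain ⟨⟨v0, hv0⟩⟩ := (h1 x0).nonempty
  have : Nonempty (UY Y Z : Set V) := ⟨⟨v0, hT x0 hx0 hv0⟩⟩
  refine ⟨fun u v => ?_⟩
  obtain ⟨u, hu⟩ := u
  obtain ⟨v, hv⟩ := v
  obtain ⟨x, hx, hux⟩ := mem_UY.1 hu
  obtain ⟨y, hy, hvy⟩ := mem_UY.1 hv
  obtain ⟨w⟩ := hZ.preconnected ⟨x, hx⟩ ⟨y, hy⟩
  exact reachable_union h1 h3 hT w u v hux hvy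

theorem disj_UY {I : Type} {Y : I → Set V} (h2 : ∀ p q, p ≠ q → Disjoint (Y p) (Y q))
    {Z Z' : Set I} (h : Disjoint Z Z') : Disjoint (UY Y Z) (UY Y Z') := by
  rw [Set.disjoint_left]
  intro v hv hv'
  obtain ⟨p, hp, hvp⟩ := mem_UY.1 hv
  obtain ⟨q, hq, hvq⟩ := mem_UY.1 hv'
  have hpq : p ≠ q := by
    rintro rfl
    exact Set.disjoint_left.1 h hp hq
  exact Set.disjoint_left.1 (h2 p q hpq) hvp hvq

/-- the branch set of one of the two extra vertices -/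
def br {I : Type} (Y : I → Set V) (P : Set V) (A B : Set I) : Set V := (P ∪ UY Y A) ∪ UY Y B

theorem con_br {I : Type} {K : SimpleGraph I} {Y : I → Set V} (h1 : ∀ p, Con G (Y p))
    (h3 : ∀ p q, K.Adj p q → Tch G (Y p) (Y q)) {P : Set V} {A B : Set I} (hP : Con G P)
    (hA : (K.induce A).Connected) (hB : (K.induce B).Connected) {a b : V} (ha : a ∈ P)
    (hb : b ∈ P) (hua : ∃ u ∈ UY Y A, G.Adj a u) (hub : ∃ u ∈ UY Y B, G.Adj b u) :
    Con G (br Y P A B) := by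
  obtain ⟨u, hu, hau⟩ := hua
  obtain ⟨w, hw, hbw⟩ := hub
  refine con_union (con_union hP (con_UY h1 h3 hA) ⟨a, ha, u, hu, hau⟩) (con_UY h1 h3 hB)
    ⟨b, Or.inl hb, w, hw, hbw⟩

theorem disj_br {I : Type} {Y : I → Set V} (h2 : ∀ p q, p ≠ q → Disjoint (Y p) (Y q))
    {P Q : Set V} {A B A' B' C : Set I} (hPQ : Disjoint P Q) (hPC : Disjoint P (UY Y C))
    (hQC : Disjoint Q (UY Y C)) (hA : A ⊆ C) (hB : B ⊆ C) (hA' : A' ⊆ C) (hB' : B' ⊆ C)
    (d1 : Disjoint A A') (d2 : Disjoint A B') (d3 : Disjoint B A') (d4 : Disjoint B B') :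
    Disjoint (br Y P A B) (br Y Q A' B') := by
  unfold br
  simp only [Set.disjoint_union_left, Set.disjoint_union_right]
  exact ⟨⟨⟨⟨hPQ, (hQC.mono_right (UY_mono hA)).symm⟩, (hQC.mono_right (UY_mono hB)).symm⟩,
    ⟨hPC.mono_right (UY_mono hA'), disj_UY h2 d1⟩, disj_UY h2 d3⟩,
    ⟨hPC.mono_right (UY_mono hB'), disj_UY h2 d2⟩, disj_UY h2 d4⟩

theorem disj_br_Y {I : Type} {Y : I → Set V} (h2 : ∀ p q, p ≠ q → Disjoint (Y p) (Y q))
    {P : Set V} {A B C : Set I} {p : I} (hPC : Disjoint P (UY Y C)) (hp : p ∈ C) (hA : p ∉ A)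
    (hB : p ∉ B) : Disjoint (br Y P A B) (Y p) := by
  have hs : ∀ Z : Set I, p ∉ Z → Disjoint (UY Y Z) (Y p) := by
    intro Z hZ
    rw [Set.disjoint_left]
    intro v hv hv'
    obtain ⟨q, hq, hvq⟩ := mem_UY.1 hv
    have hpq : q ≠ p := by
      rintro rfl
      exact hZ hq
    exact Set.disjoint_left.1 (h2 q p hpq) hvq hv'
  unfold br
  simp only [Set.disjoint_union_left]
  refine ⟨⟨?_, hs A hA⟩, hs B hB⟩
  exact hPC.mono_right fun v hv => mem_UY.2 ⟨p, hp, hv⟩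

theorem crossTX : CrossTXStmt := by
  intro V G r k x inn Y v _ geo h1 h2 h3 hv hcr
  obtain ⟨P, Q, hP, hQ, hPQ, hPB, hQB, hv0, hv2, hv1, hv3⟩ := hcr
  have hsub : ∀ i, arcX r k i ⊆ blkX r k := fun i p hp => hp.1
  refine ⟨fun z => Sum.elim (fun i => if i = 0 then br Y Q (arcX r k 1) (arcX r k 3)
    else br Y P (arcX r k 0) (arcX r k 2)) (fun p => Y (inn p)) z, ?_, ?_, ?_⟩
  · rintro (i | p)
    · rcases (by omega : i = 0 ∨ i = 1) with rfl | rfl
      · exact con_br h1 h3 hQ (geo.arc_conn 1) (geo.arc_conn 3) hv1 hv3 (hv 1) (hv 3)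
      · exact con_br h1 h3 hP (geo.arc_conn 0) (geo.arc_conn 2) hv0 hv2 (hv 0) (hv 2)
    · exact h1 (inn p)
  · have hQP : Disjoint (br Y Q (arcX r k 1) (arcX r k 3)) (br Y P (arcX r k 0) (arcX r k 2)) :=
      disj_br h2 hPQ.symm hQB hPB (hsub 1) (hsub 3) (hsub 0) (hsub 2)
        (geo.arc_disj 1 0 (by decide)) (geo.arc_disj 1 2 (by decide))
        (geo.arc_disj 3 0 (by decide)) (geo.arc_disj 3 2 (by decide))
    have hQY : ∀ p, Disjoint (br Y Q (arcX r k 1) (arcX r k 3)) (Y (inn p)) := fun p =>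
      disj_br_Y h2 hQB (geo.inn_blk p) (geo.inn_arc p 1) (geo.inn_arc p 3)
    have hPY : ∀ p, Disjoint (br Y P (arcX r k 0) (arcX r k 2)) (Y (inn p)) := fun p =>
      disj_br_Y h2 hPB (geo.inn_blk p) (geo.inn_arc p 0) (geo.inn_arc p 2)
    rintro (i | p) (j | q) hne
    · rcases (by omega : i = 0 ∨ i = 1) with rfl | rfl <;>
        rcases (by omega : j = 0 ∨ j = 1) with rfl | rfl
      · exact absurd rfl hne
      · exact hQP
      · exact hQP.symm
      · exact absurd rfl hne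
    · rcases (by omega : i = 0 ∨ i = 1) with rfl | rfl
      · exact hQY q
      · exact hPY q
    · rcases (by omega : j = 0 ∨ j = 1) with rfl | rfl
      · exact (hQY p).symm
      · exact (hPY p).symm
    · exact h2 _ _ fun h => hne (congrArg Sum.inr (geo.inn_inj h))
  · have key : ∀ (Pt : Set V) (A B : Set (Pos r)) (p : Fin r × Fin r) (q : Pos r),
        q ∈ A ∪ B → (grid (RX r)).Adj (inn p) q →
        ∃ a ∈ br Y Pt A B, ∃ b ∈ Y (inn p), G.Adj a b := by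
      intro Pt A B p q hq hadj
      obtain ⟨b, hb, a, ha, hab⟩ := h3 _ _ hadj
      refine ⟨a, ?_, b, hb, hab.symm⟩
      rcases hq with hq | hq
      · exact Or.inl (Or.inr (mem_UY.2 ⟨q, hq, ha⟩))
      · exact Or.inr (mem_UY.2 ⟨q, hq, ha⟩)
    have main : ∀ z w : Fin 2 ⊕ (Fin r × Fin r),
        ((∃ x : Fin r × Fin r, (x.1.val = 0 ∨ x.1.val + 1 = r) ∧ z = Sum.inl 0 ∧ w = Sum.inr x) ∨
        (∃ x : Fin r × Fin r, (x.2.val = 0 ∨ x.2.val + 1 = r) ∧ z = Sum.inl 1 ∧ w = Sum.inr x) ∨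
        ∃ x y : Fin r × Fin r, (grid r).Adj x y ∧ z = Sum.inr x ∧ w = Sum.inr y) →
        ∃ a ∈ (Sum.elim (fun i : Fin 2 => if i = 0 then br Y Q (arcX r k 1) (arcX r k 3)
          else br Y P (arcX r k 0) (arcX r k 2)) (fun p => Y (inn p)) z : Set V),
        ∃ b ∈ (Sum.elim (fun i : Fin 2 => if i = 0 then br Y Q (arcX r k 1) (arcX r k 3)
          else br Y P (arcX r k 0) (arcX r k 2)) (fun p => Y (inn p)) w : Set V), G.Adj a b := by
      rintro z w (⟨p, hp, rfl, rfl⟩ | ⟨p, hp, rfl, rfl⟩ | ⟨p, q, hpq, rfl, rfl⟩)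
      · rcases hp with hp | hp
        · obtain ⟨q, hq, hadj⟩ := geo.inn_3 p hp
          exact key Q _ _ p q (Or.inr hq) hadj
        · obtain ⟨q, hq, hadj⟩ := geo.inn_1 p hp
          exact key Q _ _ p q (Or.inl hq) hadj
      · rcases hp with hp | hp
        · obtain ⟨q, hq, hadj⟩ := geo.inn_2 p hp
          exact key P _ _ p q (Or.inr hq) hadj
        · obtain ⟨q, hq, hadj⟩ := geo.inn_0 p hp
          exact key P _ _ p q (Or.inl hq) hadj
      · exact h3 _ _ (geo.inn_adj p q hpq)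
    intro z w hzw
    rcases hzw.2 with h | h
    · exact main z w h
    · obtain ⟨a, ha, b, hb, hab⟩ := main w z h
      exact ⟨b, hb, a, ha, hab.symm⟩

end Vale.Agent.P235.XC.H406
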